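import Vale.Agent.P251EJ19.Slice

/-! Landweber's criterion in pure algebra: flatness of `M` over `R` along a regular sequence
`v 0, v 1, …`, from flatness over the strata `v i = 0 (i < h)`, `v h` invertible. -/

namespace P251EJ19
open TensorProduct Function

universe u

variable {R : Type u} [CommRing R]

/-- the ideal generated by `v i`, `i < h` -/
def Iv (v : ℕ → R) (h : ℕ) : Ideal R := Ideal.span (v '' Set.Iio h)

theorem Iv_zero (v : ℕ → R) : Iv v 0 = ⊥ := by
  rw [Iv, show Set.Iio 0 = (∅ : Set ℕ) from Set.eq_empty_of_forall_notMem fun x hx =>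
    absurd hx (Nat.not_lt_zero x), Set.image_empty, Ideal.span_empty]

theorem Iv_succ (v : ℕ → R) (h : ℕ) : Iv v (h + 1) = Iv v h ⊔ Ideal.span {v h} := by
  rw [Iv, Iv, ← Ideal.span_union, ← Set.image_singleton, ← Set.image_union]
  congr 2
  ext x
  simp only [Set.mem_Iio, Set.mem_union, Set.mem_singleton_iff]
  omega

theorem mem_Iv (v : ℕ → R) {h i : ℕ} (hi : i < h) : v i ∈ Iv v h :=
  Ideal.subset_span ⟨i, hi, rfl⟩

section quot

variable {S : Type*} [CommRing S] [Algebra R S] {M : Type*} [AddCommGroup M] [Module R M]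

theorem exists_tmul (hS : Surjective (algebraMap R S)) (z : S ⊗[R] M) :
    ∃ m : M, z = (1 : S) ⊗ₜ[R] m := by
  induction z using TensorProduct.induction_on with
  | zero => exact ⟨0, by simp⟩
  | add a b ha hb =>
    obtain ⟨x, rfl⟩ := ha
    obtain ⟨y, rfl⟩ := hb
    exact ⟨x + y, by rw [tmul_add]⟩
  | tmul s m =>
    obtain ⟨r, rfl⟩ := hS s
    exact ⟨r • m, by rw [tmul_smul, smul_tmul', Algebra.algebraMap_eq_smul_one]⟩

theorem tmul_eq_zero_iff (hS : Surjective (algebraMap R S)) {I : Ideal R}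
    (hI : ∀ r, algebraMap R S r = 0 ↔ r ∈ I) (m : M) :
    (1 : S) ⊗ₜ[R] m = 0 ↔ m ∈ I • (⊤ : Submodule R M) := by
  constructor
  · intro h
    have hex : Exact I.subtype (Algebra.linearMap R S) := fun r => by
      rw [Algebra.linearMap_apply, hI]
      exact ⟨fun h => ⟨⟨r, h⟩, rfl⟩, fun ⟨x, hx⟩ => hx ▸ x.2⟩
    have h1 : (Algebra.linearMap R S).rTensor M ((1 : R) ⊗ₜ[R] m) = 0 := by simpa using h
    obtain ⟨u, hu⟩ := (rTensor_exact M hex hS _).1 h1
    have h2 : TensorProduct.lid R M (I.subtype.rTensor M u) = m := by rw [hu]; simp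
    rw [← h2]
    clear h2 hu
    induction u using TensorProduct.induction_on with
    | zero => simp
    | add a b ha hb => rw [map_add, map_add]; exact add_mem ha hb
    | tmul a x => simpa using Submodule.smul_mem_smul a.2 Submodule.mem_top
  · intro h
    refine Submodule.smul_induction_on h (fun r hr x _ => ?_) fun x y hx hy => ?_
    · rw [tmul_smul, smul_tmul', ← Algebra.algebraMap_eq_smul_one, (hI r).2 hr, zero_tmul]
    · rw [tmul_add, hx, hy, add_zero]

end quot

/-- one step of the descent -/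
theorem chain_step {M : Type*} [AddCommGroup M] [Module R M] (I : Ideal R) (f : R)
    (regR : ∀ r, f * r ∈ I → r ∈ I)
    (regM : ∀ m : M, f • m ∈ I • (⊤ : Submodule R M) → m ∈ I • (⊤ : Submodule R M))
    (loc : ∀ (A : Type u) [CommRing A] [Algebra R A], (∀ r ∈ I, algebraMap R A r = 0) →
      IsUnit (algebraMap R A f) → Module.Flat A (A ⊗[R] M))
    (ih : ∀ (S : Type u) [CommRing S] [Algebra R S], Surjective (algebraMap R S) →
      (∀ r, algebraMap R S r = 0 ↔ r ∈ I ⊔ Ideal.span {f}) → Module.Flat S (S ⊗[R] M))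
    (S : Type u) [CommRing S] [Algebra R S] (hS : Surjective (algebraMap R S))
    (hI : ∀ r, algebraMap R S r = 0 ↔ r ∈ I) : Module.Flat S (S ⊗[R] M) := by
  let g : S := algebraMap R S f
  let T := S ⧸ Ideal.span {g}
  let A := Localization.Away g
  have hT : Surjective (algebraMap S T) := Ideal.Quotient.mk_surjective
  have hT0 : ∀ s, algebraMap S T s = 0 ↔ ∃ a, a * g = s := fun s =>
    Ideal.Quotient.eq_zero_iff_mem.trans Ideal.mem_span_singleton'
  have hRT : Surjective (algebraMap R T) := by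
    rw [IsScalarTower.algebraMap_eq R S T]
    exact hT.comp hS
  have hker : ∀ r, algebraMap R T r = 0 ↔ r ∈ I ⊔ Ideal.span {f} := fun r => by
    rw [IsScalarTower.algebraMap_apply R S T, hT0]
    constructor
    · rintro ⟨a, ha⟩
      obtain ⟨b, rfl⟩ := hS a
      have : r - b * f ∈ I := (hI _).1 (by rw [map_sub, map_mul, ← ha, sub_self])
      exact Submodule.mem_sup.2 ⟨_, this, b * f, Ideal.mem_span_singleton'.2 ⟨b, rfl⟩, by ring⟩
    · intro h
      obtain ⟨x, hx, y, hy, rfl⟩ := Submodule.mem_sup.1 h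
      obtain ⟨b, rfl⟩ := Ideal.mem_span_singleton'.1 hy
      exact ⟨algebraMap R S b, by rw [map_add, (hI x).2 hx, zero_add, map_mul]⟩
  have := ih T hRT hker
  have := loc A (fun r hr => by rw [IsScalarTower.algebraMap_apply R S A, (hI r).2 hr, map_zero])
    (by rw [IsScalarTower.algebraMap_apply R S A]; exact IsLocalization.Away.algebraMap_isUnit g)
  have : Module.Flat S A := IsLocalization.flat A (Submonoid.powers g)
  have : Module.Flat S (A ⊗[R] M) := Module.Flat.trans S A _
  refine flat_of_slice (S := T) g hT ((hT0 _).2 ⟨1, one_mul _⟩)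
    (fun s hs => ((hT0 s).1 hs).imp fun a ha => by rw [← ha, mul_comm]) ?_
    (AlgebraTensorModule.rTensor R M (Algebra.linearMap S T)) (fun z => ?_) (fun z hz => ?_) ?_
    (AlgebraTensorModule.rTensor R M (Algebra.linearMap S A))
  · refine (isSMulRegular_iff_right_eq_zero_of_smul).2 fun s hs => ?_
    obtain ⟨r, rfl⟩ := hS s
    exact (hI r).2 (regR r ((hI _).1 (by rw [map_mul]; exact hs)))
  · obtain ⟨m, rfl⟩ := exists_tmul hRT z
    exact ⟨1 ⊗ₜ m, by simp⟩
  · obtain ⟨m, rfl⟩ := exists_tmul hS z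
    have h1 : (1 : T) ⊗ₜ[R] m = 0 := by simpa using hz
    rw [tmul_eq_zero_iff hRT hker, Submodule.sup_smul, Submodule.mem_sup] at h1
    obtain ⟨x, hx, y, hy, rfl⟩ := h1
    rw [Submodule.ideal_span_singleton_smul, Submodule.mem_smul_pointwise_iff_exists] at hy
    obtain ⟨w, -, rfl⟩ := hy
    refine ⟨1 ⊗ₜ w, ?_⟩
    rw [tmul_add, (tmul_eq_zero_iff hS hI x).2 hx, zero_add, tmul_smul, algebraMap_smul]
  · refine (isSMulRegular_iff_right_eq_zero_of_smul).2 fun z hz => ?_
    obtain ⟨m, rfl⟩ := exists_tmul hS z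
    rw [algebraMap_smul, ← tmul_smul, tmul_eq_zero_iff hS hI] at hz
    exact (tmul_eq_zero_iff hS hI m).2 (regM m hz)

/-- **Landweber's criterion, algebraic form.** -/
theorem flat_of_chain {M : Type*} [AddCommGroup M] [Module R M] (v : ℕ → R) (n : ℕ)
    (regR : ∀ h ≤ n, ∀ r, v h * r ∈ Iv v h → r ∈ Iv v h)
    (regM : ∀ h ≤ n, ∀ m : M, v h • m ∈ Iv v h • (⊤ : Submodule R M) →
      m ∈ Iv v h • (⊤ : Submodule R M))
    (top : ∀ m : M, m ∈ Iv v (n + 1) • (⊤ : Submodule R M))
    (loc : ∀ h ≤ n, ∀ (A : Type u) [CommRing A] [Algebra R A],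
      (∀ i < h, algebraMap R A (v i) = 0) → IsUnit (algebraMap R A (v h)) →
      Module.Flat A (A ⊗[R] M)) : Module.Flat R M := by
  have key : ∀ k h, h + k = n + 1 → ∀ (S : Type u) [CommRing S] [Algebra R S],
      Surjective (algebraMap R S) → (∀ r, algebraMap R S r = 0 ↔ r ∈ Iv v h) →
      Module.Flat S (S ⊗[R] M) := by
    intro k
    induction k with
    | zero =>
      intro h hh S _ _ hS hI
      obtain rfl : h = n + 1 := hh
      have : Subsingleton (S ⊗[R] M) := subsingleton_of_forall_eq 0 fun z => by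
        obtain ⟨m, rfl⟩ := exists_tmul hS z
        exact (tmul_eq_zero_iff hS hI m).2 (top m)
      infer_instance
    | succ k ih =>
      intro h hh S _ _ hS hI
      have hn : h ≤ n := by omega
      refine chain_step (Iv v h) (v h) (regR h hn) (regM h hn)
        (fun A _ _ h0 hu => loc h hn A (fun i hi => h0 _ (mem_Iv v hi)) hu)
        (fun T _ _ hT hk => ih (h + 1) (by omega) T hT (by rwa [Iv_succ])) S hS hI
  have := key (n + 1) 0 (zero_add _) R surjective_id fun r => by simp [Iv_zero]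
  exact Module.Flat.of_linearEquiv (TensorProduct.lid R M).symm

end P251EJ19
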