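import Vale.Agent.P251EJ.DefsA

/-! The conjugation of `BP_* BP` and the invariance of the ideals `I_h`. -/

open MvPolynomial

noncomputable section

namespace P251EJ19

open Vale.Agent.P217 Vale.Agent.P251.F Vale.Agent.P257.H80 Vale.Agent.P221.H246
  Vale.Agent.P221.T Vale.Agent.P221.T.H520 Vale.Agent.P221X.EXI.Alg Vale.Agent.P251EJ

variable (p : ℕ) [hp : Fact p.Prime]

/-- the right unit on `ℤ_(p)[v_1, v_2, …]` -/
def etaK : K0 p →+* G0 p := eval₂Hom (C.comp C) (eta0 p)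

theorem etaK_X (i : ℕ) : etaK p (X i) = eta0 p i := by rw [etaK, eval₂Hom_X']

theorem etaK_C (z : Z0 p) : etaK p (C z) = C (C z) := by rw [etaK, eval₂Hom_C]; rfl

theorem etaZ_X (i : ℕ) : etaZ p (X i) = eta0 p i := by rw [etaZ, eval₂Hom_X']

theorem K0_ext {B : Type*} [CommRing B] {f g : K0 p →+* B} (h : ∀ i, f (X i) = g (X i)) : f = g :=
  MvPolynomial.ringHom_ext' (Z0.hom_ext _ _) h

theorem Z_ext {B : Type*} [CommRing B] {f g : MvPolynomial ℕ ℤ →+* B}
    (h : ∀ i, f (X i) = g (X i)) : f = g :=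
  MvPolynomial.ringHom_ext' (RingHom.ext_int _ _) h

theorem eta_spec : ∃ g ∈ strict (G0 p), (∀ k, g.c (p ^ (k + 1) - 1) = X k) ∧
    g⁻¹ • (haz p).map (B := G0 p) (φ0 p) = (haz p).map (B := G0 p) (etaZ p) := by
  obtain ⟨g, hg, hgc, ψ, hψ, he⟩ := eta0_spec p
  obtain rfl : ψ = etaZ p := Z_ext fun i => by rw [hψ, etaZ_X]
  exact ⟨g, hg, hgc, he⟩

/-- **the conjugation** -/
theorem exists_conj : ∃ c : G0 p →+* G0 p, (∀ a, c (C a) = etaK p a) ∧
    (∀ a, c (etaK p a) = C a) ∧ ∀ x, c (c x) = x := by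
  obtain ⟨g, hg, hgc, he⟩ := eta_spec p
  have hG : PLoc p (G0 p) := ((ploc_Z0 p).map C).map C
  let c : G0 p →+* G0 p := eval₂Hom (etaK p) fun k => g⁻¹.c (p ^ (k + 1) - 1)
  have cC : ∀ a, c (C a) = etaK p a := fun a => eval₂Hom_C _ _ a
  have cX : ∀ k, c (X k) = g⁻¹.c (p ^ (k + 1) - 1) := fun k => eval₂Hom_X' _ _ k
  have h1 : c.comp (φ0 p) = etaZ p := Z_ext fun i => by
    rw [RingHom.comp_apply, φ0_X, cC, etaK_X, etaZ_X]
  have h2 := map_typical p c he
  rw [h1] at h2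
  have h3 : g⁻¹⁻¹ • (haz p).map (B := G0 p) (etaZ p) = (haz p).map (B := G0 p) (φ0 p) := by
    rw [← he, inv_smul_smul]
  have h4 : InvSeries.map c g = g⁻¹ :=
    eq_of_typical p hG (map_mem_strict c hg) ((strict _).inv_mem hg) ⟨_, h2⟩ ⟨_, h3⟩ fun k => by
      rw [InvSeries.c_map, hgc, cX]
  have h5 : c.comp (etaZ p) = φ0 p := haz_map_injective p hG (by rw [← h2, h4, h3])
  have h6 : c.comp (etaK p) = C := K0_ext p fun i => by
    rw [RingHom.comp_apply, etaK_X, ← etaZ_X, ← φ0_X, ← h5, RingHom.comp_apply]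
  have h7 : ∀ a, c (etaK p a) = C a := fun a => RingHom.congr_fun h6 a
  have h8 : c.comp c = RingHom.id _ := MvPolynomial.ringHom_ext
    (fun a => by rw [RingHom.comp_apply, cC, h7, RingHom.id_apply]) fun k => by
      rw [RingHom.comp_apply, cX, ← InvSeries.c_map, map_inv, h4, inv_inv, hgc, RingHom.id_apply]
  exact ⟨c, cC, h7, fun x => RingHom.congr_fun h8 x⟩

variable {p} {B : Type*} [CommRing B]

/-- **`η v_h = v_h` modulo `I_h`** -/
theorem eta_eq_of_zero (θ : G0 p →+* B) (h : ℕ) (h0 : ∀ i < h, θ (C (vv0 p i)) = 0) :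
    θ (etaK p (vv0 p h)) = θ (C (vv0 p h)) := by
  induction h using Nat.strong_induction_on with
  | _ h ih =>
    rcases h with _ | k
    · rw [vv0, map_natCast, map_natCast (C : K0 p →+* G0 p)]
    obtain ⟨g, hg, -, he⟩ := eta_spec p
    have hB : (p : B) = 0 := by
      have := h0 0 k.succ_pos
      rwa [vv0, map_natCast, map_natCast] at this
    have a1 : ∀ j < k, θ.comp (φ0 p) (X j) = 0 := fun j hj => by
      rw [RingHom.comp_apply, φ0_X, ← vv0, h0 _ (by omega)]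
    have a2 : ∀ j < k, θ.comp (etaZ p) (X j) = 0 := fun j hj => by
      rw [RingHom.comp_apply, etaZ_X, ← etaK_X, ← vv0,
        ih (j + 1) (by omega) fun i hi => h0 i (by omega), h0 _ (by omega)]
    have a3 : ∀ i < k + 1, vv p i ((haz p).map (θ.comp (φ0 p))) = 0 := by
      rintro (_ | j) hj
      · rw [vv_zero, hB]
      · rw [vv_haz_of_zero p hB fun l hl => a1 l (by omega), a1 j (by omega)]
    have a4 := (vv_smul_of_zero p (k + 1) _ (InvSeries.map θ g)⁻¹ a3).2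
    rw [map_typical p θ he, mem_strict.1 ((strict _).inv_mem (map_mem_strict θ hg)), one_pow,
      mul_one, one_mul, vv_haz_of_zero p hB a2, vv_haz_of_zero p hB a1, RingHom.comp_apply,
      RingHom.comp_apply, etaZ_X, φ0_X] at a4
    rw [vv0, etaK_X, a4]

variable (p)

/-- `I_h · BP_* BP` -/
def IG (h : ℕ) : Ideal (G0 p) := Ideal.span ((fun i => C (vv0 p i)) '' Set.Iio h)

theorem C_mem_IG {h i : ℕ} (hi : i < h) : C (vv0 p i) ∈ IG p h := Ideal.subset_span ⟨i, hi, rfl⟩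

theorem eta_sub_mem (h : ℕ) : etaK p (vv0 p h) - C (vv0 p h) ∈ IG p h :=
  Ideal.Quotient.eq.1 (eta_eq_of_zero (B := G0 p ⧸ IG p h) (Ideal.Quotient.mk (IG p h)) h
    fun _ hi => Ideal.Quotient.eq_zero_iff_mem.2 (C_mem_IG p hi))

theorem IG_mono {h k : ℕ} (hk : h ≤ k) : IG p h ≤ IG p k :=
  Ideal.span_mono (Set.image_mono (Set.Iio_subset_Iio hk))

theorem eta_mem_IG {h i : ℕ} (hi : i < h) : etaK p (vv0 p i) ∈ IG p h := by
  have h1 := IG_mono p hi.le (eta_sub_mem p i)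
  simpa using add_mem h1 (C_mem_IG p hi)

end P251EJ19
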