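import Vale.Agent.P251EJ19.Conj

/-! Regularity of `v_h` modulo `I_h` on `BP_*` and on `BP_* E(n+1)`. -/

open MvPolynomial

noncomputable section

namespace P251EJ19

open Vale.Agent.P221.T Vale.Agent.P221.T.H520 Vale.Agent.P221X.EXI.Alg Vale.Agent.P251EJ

section ql

variable {R : Type} [CommRing R] (J : Ideal R) (w : R)

theorem qL_unit : IsUnit (qL J w w) :=
  IsLocalization.Away.algebraMap_isUnit (Ideal.Quotient.mk J w)

theorem qL_surj (a : QL J w) : ∃ (k : ℕ) (x : R), qL J w w ^ k * a = qL J w x := by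
  obtain ⟨k, y, hy⟩ := IsLocalization.Away.surj (Ideal.Quotient.mk J w) a
  obtain ⟨x, rfl⟩ := Ideal.Quotient.mk_surjective y
  exact ⟨k, x, by rw [mul_comm]; exact hy⟩

theorem qL_mem_map (I : Ideal R) (x : R) :
    qL J w x ∈ I.map (qL J w) ↔ ∃ k : ℕ, w ^ k * x ∈ I ⊔ J := by
  rw [qL, ← Ideal.map_map, RingHom.comp_apply, IsLocalization.algebraMap_mem_map_algebraMap_iff
    (Submonoid.powers (Ideal.Quotient.mk J w))]
  constructor
  · rintro ⟨_, ⟨k, rfl⟩, hk⟩
    refine ⟨k, Ideal.mem_quotient_iff_mem_sup.1 ?_⟩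
    rw [map_mul, map_pow]
    exact hk
  · rintro ⟨k, hk⟩
    refine ⟨_, ⟨k, rfl⟩, ?_⟩
    have := Ideal.mem_quotient_iff_mem_sup.2 hk
    rwa [map_mul, map_pow] at this

end ql

variable (p : ℕ) [hp : Fact p.Prime]

theorem Zs_le : Zs p ≤ nonZeroDivisors ℤ := fun _ hz =>
  mem_nonZeroDivisors_of_ne_zero fun h => hz (h ▸ dvd_zero _)

theorem loc_reg (c : Localization (Zs p)) (h : (p : Localization (Zs p)) * c = 0) : c = 0 := by
  have := IsLocalization.isDomain_localization (Zs_le p)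
  refine (mul_eq_zero.1 h).resolve_left fun h0 => hp.out.ne_zero ?_
  have h1 : algebraMap ℤ (Localization (Zs p)) (p : ℤ) = algebraMap ℤ _ 0 := by simpa using h0
  exact_mod_cast IsLocalization.injective _ (Zs_le p) h1

theorem Z0_reg (c : Z0 p) (h : (p : Z0 p) * c = 0) : c = 0 := loc_reg p c h

open Classical in
/-- kills the `v_i`, `i ∈ T`, `i > 0` -/
def kill (T : Set ℕ) : K0 p →+* K0 p := eval₂Hom C fun j => if j + 1 ∈ T then 0 else X j

theorem kill_vv (T : Set ℕ) {i : ℕ} (hi : i ∉ T) : kill p T (vv0 p i) = vv0 p i := by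
  rcases i with _ | j
  · rw [vv0, map_natCast]
  · rw [vv0, kill, eval₂Hom_X', if_neg hi]

theorem sub_kill (T : Set ℕ) (r : K0 p) : r - kill p T r ∈ Ideal.span (vv0 p '' T) := by
  have h : Ideal.Quotient.mk (Ideal.span (vv0 p '' T)) =
      (Ideal.Quotient.mk (Ideal.span (vv0 p '' T))).comp (kill p T) :=
    K0_ext p (B := K0 p ⧸ Ideal.span (vv0 p '' T)) fun j => by
      rw [RingHom.comp_apply, kill, eval₂Hom_X']
      split_ifs with hj
      · rw [map_zero]
        exact Ideal.Quotient.eq_zero_iff_mem.2 (Ideal.subset_span ⟨j + 1, hj, rfl⟩)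
      · rfl
  exact Ideal.Quotient.eq.1 (RingHom.congr_fun h r)

/-- `v_i` is regular modulo any family of other `v_j` -/
theorem regT (T : Set ℕ) {i : ℕ} (hi : i ∉ T) (r : K0 p)
    (h : vv0 p i * r ∈ Ideal.span (vv0 p '' T)) : r ∈ Ideal.span (vv0 p '' T) := by
  classical
  set z : Z0 p := if 0 ∈ T then (p : Z0 p) else 0 with hz
  have h1 : Ideal.span (vv0 p '' T) ≤ (Ideal.span {(C z : K0 p)}).comap (kill p T) := by
    refine Ideal.span_le.2 ?_
    rintro _ ⟨_ | j, hj, rfl⟩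
    · change kill p T (vv0 p _) ∈ Ideal.span {(C z : K0 p)}
      rw [vv0, map_natCast, hz, if_pos hj, map_natCast]
      exact Ideal.mem_span_singleton_self _
    · change kill p T (vv0 p _) ∈ Ideal.span {(C z : K0 p)}
      rw [vv0, kill, eval₂Hom_X', if_pos hj]
      exact zero_mem _
  have h2 : C z ∣ vv0 p i * kill p T r := by
    rw [← kill_vv p T hi, ← map_mul]
    exact Ideal.mem_span_singleton.1 (h1 h)
  have h3 : C z ∣ kill p T r := by
    rw [C_dvd_iff_dvd_coeff] at h2 ⊢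
    intro E
    rcases i with _ | j
    · have := h2 E
      rw [vv0, ← map_natCast (C : Z0 p →+* K0 p), coeff_C_mul, hz, if_neg hi, zero_dvd_iff] at this
      rw [Z0_reg p _ this]
      exact dvd_zero _
    · have := h2 (Finsupp.single j 1 + E)
      rwa [vv0, coeff_X_mul] at this
  have h4 : (C z : K0 p) ∈ Ideal.span (vv0 p '' T) := by
    rw [hz]
    split_ifs with h0
    · rw [map_natCast]
      exact Ideal.subset_span ⟨0, h0, rfl⟩
    · rw [map_zero]
      exact zero_mem _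
  obtain ⟨s, hs⟩ := h3
  have h5 := add_mem (sub_kill p T r) (hs ▸ Ideal.mul_mem_right s _ h4)
  rwa [sub_add_cancel] at h5

theorem regT_pow (T : Set ℕ) {i : ℕ} (hi : i ∉ T) (k : ℕ) (r : K0 p)
    (h : vv0 p i ^ k * r ∈ Ideal.span (vv0 p '' T)) : r ∈ Ideal.span (vv0 p '' T) := by
  induction k with
  | zero => simpa using h
  | succ k ih => exact ih (regT p T hi _ (by rwa [← mul_assoc, ← pow_succ']))

/-- the key regularity in `BP_* BP` -/
theorem regG {n h : ℕ} (hh : h ≤ n + 1) (k : ℕ) (x : G0 p)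
    (hx : eta0 p n ^ k * (C (vv0 p h) * x) ∈ IG p h ⊔ JJ p n) : x ∈ IG p h ⊔ JJ p n := by
  obtain ⟨c, cC, cη, cc⟩ := exists_conj p
  set T : Set ℕ := {i | i < h ∨ n + 1 < i} with hT
  set P : Ideal (G0 p) := (Ideal.span (vv0 p '' T)).map C with hP
  have cη' : ∀ j, c (eta0 p j) = C (vv0 p (j + 1)) := fun j => by rw [← etaK_X, cη, vv0]
  have mP : ∀ i ∈ T, C (vv0 p i) ∈ P := fun i hi =>
    Ideal.mem_map_of_mem _ (Ideal.subset_span ⟨i, hi, rfl⟩)
  have iP : IG p h ≤ P := Ideal.span_le.2 (by rintro _ ⟨i, hi, rfl⟩; exact mP i (Or.inl hi))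
  have a1 : IG p h ⊔ JJ p n ≤ P.comap c := by
    refine sup_le (Ideal.span_le.2 ?_) (Ideal.span_le.2 ?_)
    · rintro _ ⟨i, hi, rfl⟩
      change c _ ∈ P
      rw [cC]
      exact iP (eta_mem_IG p hi)
    · rintro _ ⟨j, hj, rfl⟩
      change c _ ∈ P
      rw [cη']
      exact mP _ (Or.inr (Nat.succ_lt_succ hj))
  have a2 : P ≤ (IG p h ⊔ JJ p n).comap c := by
    rw [hP, Ideal.map_le_iff_le_comap]
    refine Ideal.span_le.2 ?_
    rintro _ ⟨i, hi | hi, rfl⟩
    · change c (C (vv0 p _)) ∈ IG p h ⊔ JJ p n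
      rw [cC]
      exact Ideal.mem_sup_left (eta_mem_IG p hi)
    · obtain ⟨j, rfl⟩ : ∃ j, i = j + 1 := ⟨i - 1, by omega⟩
      change c (C (vv0 p _)) ∈ IG p h ⊔ JJ p n
      rw [cC, vv0, etaK_X]
      exact Ideal.mem_sup_right (Ideal.subset_span ⟨j, Nat.lt_of_succ_lt_succ hi, rfl⟩)
  have b1 : c (eta0 p n ^ k * (C (vv0 p h) * x)) ∈ P := a1 hx
  rw [map_mul, map_mul, map_pow, cη', cC] at b1
  have b2 : C (vv0 p (n + 1) ^ k * vv0 p h) * c x ∈ P := by
    have := sub_mem b1 (Ideal.mul_mem_left _ (C (vv0 p (n + 1)) ^ k)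
      (Ideal.mul_mem_right (c x) _ (iP (eta_sub_mem p h))))
    convert this using 1
    rw [map_mul, map_pow]
    ring
  have b3 : c x ∈ P := by
    rw [hP, MvPolynomial.mem_map_C_iff] at b2 ⊢
    intro E
    have := b2 E
    rw [coeff_C_mul, mul_assoc] at this
    exact regT p T (i := h) (by rw [hT]; simp; omega) _
      (regT_pow p T (i := n + 1) (by rw [hT]; simp; omega) k _ this)
  have b4 : c (c x) ∈ IG p h ⊔ JJ p n := a2 b3
  rwa [cc] at b4

theorem regA {n h : ℕ} (hh : h ≤ n + 1) (a : AA p n)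
    (ha : qA p n (C (vv0 p h)) * a ∈ (IG p h).map (qA p n)) : a ∈ (IG p h).map (qA p n) := by
  obtain ⟨k, x, hx⟩ := qL_surj _ _ a
  have h1 : qA p n (C (vv0 p h) * x) ∈ (IG p h).map (qA p n) := by
    have := Ideal.mul_mem_left _ (qA p n (eta0 p n) ^ k) ha
    rwa [mul_left_comm, qA, hx, ← map_mul] at this
  obtain ⟨l, hl⟩ := (qL_mem_map _ _ _ _).1 h1
  have h2 := (qL_mem_map _ (eta0 p n) (IG p h) x).2 ⟨0, by simpa using regG p hh l x hl⟩
  rw [← hx] at h2
  exact (Ideal.unit_mul_mem_iff_mem _ ((qL_unit _ _).pow k)).1 h2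

theorem topA (n : ℕ) (a : AA p n) : a ∈ (IG p (n + 1 + 1)).map (qA p n) := by
  have h1 : qA p n (eta0 p n) ∈ (IG p (n + 1 + 1)).map (qA p n) := by
    have := eta_mem_IG p (Nat.lt_succ_self (n + 1))
    rw [vv0, etaK_X] at this
    exact Ideal.mem_map_of_mem _ this
  rw [Ideal.eq_top_of_isUnit_mem _ h1 (qL_unit _ _)]
  trivial

end P251EJ19
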