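import Vale.Agent.P251EJ19.Loc
import Vale.Agent.P251EJ19.Reg

/-! Landweber flatness of `BP_* E(n+1)` over `BP_*`. -/

open MvPolynomial

noncomputable section

namespace P251EJ19

open Vale.Agent.P221.T Vale.Agent.P221.T.H520 Vale.Agent.P221X.EXI.Alg Vale.Agent.P251EJ

variable (p : ℕ) [hp : Fact p.Prime]

theorem alg_eq (n : ℕ) : (qA p n).comp C = algebraMap (K0 p) (AA p n) := rfl

theorem mem_smul_iff (n h : ℕ) (a : AA p n) :
    a ∈ Iv (vv0 p) h • (⊤ : Submodule (K0 p) (AA p n)) ↔ a ∈ (IG p h).map (qA p n) := by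
  rw [Ideal.smul_top_eq_map, Submodule.restrictScalars_mem, ← alg_eq, ← Ideal.map_map, Iv,
    Ideal.map_span, Set.image_image]
  rfl

/-- **block FLAT** -/
theorem flatA (n : ℕ) : FlatA p n := by
  rw [FlatA, alg_eq, RingHom.flat_algebraMap_iff]
  refine flat_of_chain (vv0 p) (n + 1) (fun h _ r => regT p (Set.Iio h) (lt_irrefl h) r)
    (fun h hh a ha => ?_) (fun a => (mem_smul_iff p n _ a).2 (topA p n a))
    fun h hh A _ _ h0 hu => locA p hh A h0 hu
  rw [mem_smul_iff] at ha ⊢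
  rw [Algebra.smul_def, ← alg_eq] at ha
  exact regA p hh a ha

end P251EJ19
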