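import Vale.Agent.P251EJ19.Chain
import Vale.Agent.P251EJ.DefsA

/-! Flatness over the strata. -/

open MvPolynomial TensorProduct Function

noncomputable section

namespace P251EJ19

open Vale.Agent.P221.T Vale.Agent.P221.T.H520 Vale.Agent.P221X.EXI.Alg Vale.Agent.P251EJ

/-- a quotient of the polynomial ring by the `ρ j` is flat when the monomials in the `ρ j` are part
of a basis -/
theorem flat_of_basis {A : Type*} [CommRing A] {ι : Type*}
    (bb : Module.Basis (ι × (ℕ →₀ ℕ)) A (MvPolynomial ℕ A)) (ρ : ℕ → MvPolynomial ℕ A)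
    (hb : ∀ j E F, ρ j * bb (E, F) = bb (E, F + Finsupp.single j 1))
    {Q : Type*} [AddCommGroup Q] [Module A Q] (π : MvPolynomial ℕ A →ₗ[A] Q) (hπ : Surjective π)
    (hk : ∀ x, π x = 0 ↔ x ∈ Ideal.span (Set.range ρ)) : Module.Flat A Q := by
  classical
  let r : MvPolynomial ℕ A →ₗ[A] MvPolynomial ℕ A := bb.constr A fun z => if z.2 = 0 then bb z else 0
  have r1 : ∀ j g, r (ρ j * g) = 0 := fun j g => by
    have : r ∘ₗ LinearMap.mulLeft A (ρ j) = 0 := bb.ext fun ⟨E, F⟩ => by
      rw [LinearMap.comp_apply, LinearMap.mulLeft_apply, hb, Module.Basis.constr_basis, if_neg,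
        LinearMap.zero_apply]
      intro h
      simpa using DFunLike.congr_fun h j
    exact LinearMap.congr_fun this g
  have r2 : LinearMap.ker π ≤ LinearMap.ker r := fun x hx => by
    have h1 : ∀ g, r (x * g) = 0 := by
      refine Submodule.span_induction (fun y hy => ?_) (fun g => ?_) (fun y z _ _ hy hz g => ?_)
        (fun a y _ hy g => ?_) ((hk x).1 hx)
      · obtain ⟨j, rfl⟩ := hy
        exact r1 j
      · rw [zero_mul, map_zero]
      · rw [add_mul, map_add, hy, hz, add_zero]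
      · rw [smul_eq_mul, mul_comm a, mul_assoc, hy]
    simpa using h1 1
  have r3 : π ∘ₗ r = π := bb.ext fun ⟨E, F⟩ => by
    rw [LinearMap.comp_apply, Module.Basis.constr_basis]
    split_ifs with h
    · rfl
    · obtain ⟨j, hj⟩ := Finsupp.ne_iff.1 h
      have e : F = F - Finsupp.single j 1 + Finsupp.single j 1 :=
        (tsub_add_cancel_of_le (Finsupp.single_le_iff.2 (Nat.pos_of_ne_zero hj))).symm
      rw [map_zero, e, ← hb]
      exact ((hk _).2 (Ideal.mul_mem_right _ _ (Ideal.subset_span ⟨j, rfl⟩))).symm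
  refine Module.Flat.of_retract
    ((LinearMap.ker π).liftQ r r2 ∘ₗ (π.quotKerEquivOfSurjective hπ).symm.toLinearMap) π ?_
  ext q
  obtain ⟨x, rfl⟩ := hπ q
  have : (π.quotKerEquivOfSurjective hπ).symm (π x) = Submodule.Quotient.mk x := by
    rw [LinearEquiv.symm_apply_eq]
    rfl
  simp only [LinearMap.comp_apply, LinearEquiv.coe_coe, this, Submodule.liftQ_apply,
    LinearMap.id_apply]
  exact LinearMap.congr_fun r3 x

theorem flat_quot {K A : Type*} [CommRing K] [CommRing A] [Algebra K A] {ι : Type*}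
    (bb : Module.Basis (ι × (ℕ →₀ ℕ)) A (MvPolynomial ℕ A)) (ρ : ℕ → MvPolynomial ℕ K)
    (hb : ∀ j E F, map (algebraMap K A) (ρ j) * bb (E, F) = bb (E, F + Finsupp.single j 1))
    (J : Ideal (MvPolynomial ℕ K)) (hJ : J = Ideal.span (Set.range ρ)) :
    Module.Flat A (A ⊗[K] (MvPolynomial ℕ K ⧸ J)) := by
  let e := algebraTensorAlgEquiv (σ := ℕ) K A
  let g := Algebra.TensorProduct.map (AlgHom.id A A) (Ideal.Quotient.mkₐ K J)
  have hg : Surjective g := fun z => by
    obtain ⟨w, hw⟩ := LinearMap.lTensor_surjective A (g := (Ideal.Quotient.mkₐ K J).toLinearMap)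
      (Ideal.Quotient.mkₐ_surjective K J) z
    exact ⟨w, hw⟩
  refine flat_of_basis bb _ hb (g.comp e.symm.toAlgHom).toLinearMap
    (hg.comp e.symm.surjective) fun x => ?_
  obtain ⟨y, rfl⟩ := e.surjective x
  have h1 : (g.comp e.symm.toAlgHom).toLinearMap (e y) = g y := by simp
  have h2 := Algebra.TensorProduct.lTensor_ker (A := A) (Ideal.Quotient.mkₐ K J)
    (Ideal.Quotient.mkₐ_surjective K J)
  have h3 : g y = 0 ↔ y ∈ RingHom.ker
      (Algebra.TensorProduct.map (AlgHom.id K A) (Ideal.Quotient.mkₐ K J)) := Iff.rfl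
  have h4 : RingHom.ker (Ideal.Quotient.mkₐ K J) = J := Ideal.mk_ker
  rw [h1, h3, h2, h4, hJ, Ideal.map_span, ← Ideal.apply_mem_of_equiv_iff (f := e.toRingEquiv),
    Ideal.map_span, ← Set.range_comp, ← Set.range_comp]
  have h5 : (⇑e.toRingEquiv ∘ ⇑(Algebra.TensorProduct.includeRight : MvPolynomial ℕ K →ₐ[K]
      A ⊗[K] MvPolynomial ℕ K) ∘ ρ) = fun j => map (algebraMap K A) (ρ j) := funext fun j => by
    simp [e]
  rw [h5]
  rfl

theorem flat_loc {K A Q B : Type*} [CommRing K] [CommRing A] [CommRing Q] [CommRing B]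
    [Algebra K A] [Algebra K Q] [Algebra K B] [Algebra Q B] [IsScalarTower K Q B]
    (M : Submonoid Q) [IsLocalization M B] [Module.Flat A (A ⊗[K] Q)] :
    Module.Flat A (A ⊗[K] B) := by
  let _ : Algebra (A ⊗[K] Q) (A ⊗[K] B) :=
    (Algebra.TensorProduct.map (AlgHom.id K A) (IsScalarTower.toAlgHom K Q B)).toAlgebra
  have : IsScalarTower A (A ⊗[K] Q) (A ⊗[K] B) :=
    .of_algebraMap_eq <| by intro; simp [RingHom.algebraMap_toAlgebra]
  have := IsLocalization.tensorProduct_tensorProduct_right K A M B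
    (by ext; simp [RingHom.algebraMap_toAlgebra])
  have : Module.Flat (A ⊗[K] Q) (A ⊗[K] B) :=
    IsLocalization.flat _ (M.map (Algebra.TensorProduct.includeRight (R := K) (A := A)))
  exact Module.Flat.trans A (A ⊗[K] Q) _

variable (p : ℕ) [hp : Fact p.Prime]

theorem JJ_eq (n : ℕ) : JJ p n = Ideal.span (Set.range fun j => eta0 p (n + 1 + j)) := by
  rw [JJ]
  congr 1
  ext x
  constructor
  · rintro ⟨j, hj, rfl⟩
    obtain ⟨k, rfl⟩ := Nat.exists_eq_add_of_le (Nat.succ_le_of_lt hj)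
    exact ⟨k, rfl⟩
  · rintro ⟨j, rfl⟩
    exact ⟨n + 1 + j, by change n < _; omega, rfl⟩

theorem locA {n h : ℕ} (hh : h ≤ n + 1) (A : Type) [CommRing A] [Algebra (K0 p) A]
    (h0 : ∀ i < h, algebraMap (K0 p) A (vv0 p i) = 0) (hu : IsUnit (algebraMap (K0 p) A (vv0 p h))) :
    Module.Flat A (A ⊗[K0 p] AA p n) := by
  obtain ⟨bb, hb⟩ := exists_basis_sm (n + 1 - h) (pow_pos hp.out.pos h)
    (fun j => map (algebraMap (K0 p) A) (eta0 p (n + 1 + j))) fun j => by
      have := eta_Ld (algebraMap (K0 p) A) h h0 hu (n + 1 - h + j)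
      rwa [show h + (n + 1 - h + j) = n + 1 + j by omega] at this
  have := flat_quot bb (fun j => eta0 p (n + 1 + j)) (fun j E F => by
    rw [hb, hb, Finsupp.prod_add_index' (fun _ => pow_zero _) fun _ _ _ => pow_add _ _ _,
      Finsupp.prod_single_index (h := fun j k =>
        map (algebraMap (K0 p) A) (eta0 p (n + 1 + j)) ^ k) (pow_zero _), pow_one]
    ring) (JJ p n) (JJ_eq p n)
  exact flat_loc (Submonoid.powers (Ideal.Quotient.mk (JJ p n) (eta0 p n)))

end P251EJ19
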