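import Vale.Agent.P251EJ19.Flat
import Vale.Agent.P251EJ6.Laz
import Vale.Agent.P251EJ56.Grade
import Vale.Agent.P251EJ2.Tau
import Vale.Agent.P251EJ37.AsmA

/-! Block A, plugged. -/

namespace P251EJ19

open Vale.Agent Vale.Agent.P251EJ

theorem blockA (p : ℕ) [Fact p.Prime] (n : ℕ) : Nonempty (AD p n) :=
  P251EJ37.asmA p n P251EJ6.lazard (flatA p n) (P251EJ56.gradeA p n) (P251EJ2.tauA p n)

end P251EJ19
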