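import Mathlib

/-! Slicing criterion for flatness: if `f` is regular on `R` and on `M`, `M / f` is flat over
`R / f` and `M[1/f]` is flat over `R`, then `M` is flat over `R`. -/

namespace P251EJ19
open TensorProduct Function

variable {R : Type*} [CommRing R]

/-- `S ⊗ K → S ⊗ F` is injective for `S = R / f` when `F / K` has no `f`-torsion. -/
theorem baseChange_inj {S : Type*} [CommRing S] [Algebra R S] (f : R)
    (hS : Surjective (algebraMap R S)) (hf0 : algebraMap R S f = 0)
    (hk : ∀ r, algebraMap R S r = 0 → ∃ s, r = f * s)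
    {F : Type*} [AddCommGroup F] [Module R F] (K : Submodule R F)
    (hK : ∀ x : F, f • x ∈ K → x ∈ K) : Injective (K.subtype.baseChange S) := by
  have hex : Exact (f • (LinearMap.id : R →ₗ[R] R)) (Algebra.linearMap R S) := by
    intro r
    constructor
    · intro h
      obtain ⟨s, rfl⟩ := hk r h
      exact ⟨s, by simp⟩
    · rintro ⟨s, rfl⟩
      simp [hf0]
  rw [injective_iff_map_eq_zero]
  intro z hz
  obtain ⟨w, rfl⟩ := LinearMap.rTensor_surjective K (g := Algebra.linearMap R S) hS z
  obtain ⟨k, rfl⟩ := (TensorProduct.lid R K).symm.surjective w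
  have h1 : (Algebra.linearMap R S).rTensor F ((1 : R) ⊗ₜ[R] (k : F)) = 0 := by
    simpa using hz
  obtain ⟨u, hu⟩ := (rTensor_exact F hex hS _).1 h1
  have h2 : f • TensorProduct.lid R F u = (k : F) := by
    have := congrArg (TensorProduct.lid R F) hu
    simpa [LinearMap.rTensor_smul] using this
  have h3 : TensorProduct.lid R F u ∈ K := hK _ (h2 ▸ k.2)
  have h4 : k = f • (⟨_, h3⟩ : K) := Subtype.ext h2.symm
  rw [h4]
  simp only [TensorProduct.lid_symm_apply, LinearMap.rTensor_tmul, Algebra.linearMap_apply,
    map_one]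
  rw [TensorProduct.tmul_smul, TensorProduct.smul_tmul', Algebra.smul_def, hf0]
  simp

theorem lTensor_inj {S : Type*} [CommRing S] [Algebra R S]
    {Q : Type*} [AddCommGroup Q] [Module R Q] [Module S Q] [IsScalarTower R S Q] [Module.Flat S Q]
    {K F : Type*} [AddCommGroup K] [Module R K] [AddCommGroup F] [Module R F] (j : K →ₗ[R] F)
    (i1 : Injective (j.baseChange S)) : Injective (j.lTensor Q) := by
  have i2 : Injective ((j.baseChange S).lTensor Q) :=
    Module.Flat.lTensor_preserves_injective_linearMap _ i1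
  have e : ∀ z, AlgebraTensorModule.cancelBaseChange R S S Q F ((j.baseChange S).lTensor Q z) =
      j.lTensor Q (AlgebraTensorModule.cancelBaseChange R S S Q K z) := by
    intro z
    induction z using TensorProduct.induction_on with
    | zero => simp
    | add a b ha hb => simp only [map_add, ha, hb]
    | tmul q t =>
      induction t using TensorProduct.induction_on with
      | zero => simp
      | add a b ha hb => simp only [tmul_add, map_add, ha, hb]
      | tmul s k => simp
  rw [injective_iff_map_eq_zero]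
  intro z hz
  obtain ⟨w, rfl⟩ := (AlgebraTensorModule.cancelBaseChange R S S Q K).surjective z
  rw [← e, EmbeddingLike.map_eq_zero_iff] at hz
  rw [(injective_iff_map_eq_zero _).1 i2 w hz, map_zero]

theorem smul_tensor_zero (f : R) {Q F : Type*} [AddCommGroup Q] [Module R Q] [AddCommGroup F]
    [Module R F] (hQ : ∀ q : Q, f • q = 0) (t : Q ⊗[R] F) : f • t = 0 := by
  induction t using TensorProduct.induction_on with
  | zero => simp
  | add a b ha hb => rw [smul_add, ha, hb, add_zero]
  | tmul q x => rw [TensorProduct.smul_tmul', hQ, zero_tmul]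

theorem reg_aux (f : R) {M Q : Type*} [AddCommGroup M] [Module R M] [AddCommGroup Q] [Module R Q]
    (π : M →ₗ[R] Q) (hπ : Surjective π) (hQ : ∀ q : Q, f • q = 0)
    (hπk : ∀ x, π x = 0 → ∃ y, x = f • y)
    {K F N : Type*} [AddCommGroup K] [Module R K] [AddCommGroup F] [Module R F]
    [AddCommGroup N] [Module R N] (j : K →ₗ[R] F) (p : F →ₗ[R] N) (hjp : Exact j p)
    (hp : Surjective p) (i3 : Injective (j.lTensor Q)) (hF : IsSMulRegular (M ⊗[R] F) f) :
    IsSMulRegular (M ⊗[R] N) f := by
  have hex : Exact (f • (LinearMap.id : M →ₗ[R] M)) π := by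
    intro x
    constructor
    · intro h
      obtain ⟨s, rfl⟩ := hπk x h
      exact ⟨s, by simp⟩
    · rintro ⟨s, rfl⟩
      simp [hQ]
  refine (isSMulRegular_iff_right_eq_zero_of_smul).2 fun z hz => ?_
  obtain ⟨w, rfl⟩ := LinearMap.lTensor_surjective M hp z
  have e1 : Exact (j.lTensor M) (p.lTensor M) := lTensor_exact M hjp hp
  obtain ⟨u, hu⟩ := (e1 (f • w)).1 (by rw [map_smul, hz])
  have h0 : π.rTensor K u = 0 := by
    apply i3
    rw [map_zero, ← LinearMap.comp_apply, LinearMap.lTensor_comp_rTensor,
      ← LinearMap.rTensor_comp_lTensor, LinearMap.comp_apply, hu, map_smul]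
    exact smul_tensor_zero f hQ _
  obtain ⟨u', hu'⟩ := (rTensor_exact K hex hπ u).1 h0
  have h5 : u = f • u' := by simpa [LinearMap.rTensor_smul] using hu'.symm
  have h6 : w = j.lTensor M u' := by
    apply hF
    change f • w = f • _
    rw [← hu, h5, map_smul]
  rw [h6]
  exact (e1 _).2 ⟨u', rfl⟩

/-- `f` regular on `N` and `M`, `M / f` flat over `R / f`: then `f` is regular on `M ⊗ N`. -/
theorem reg_tensor {S : Type*} [CommRing S] [Algebra R S] (f : R)
    (hS : Surjective (algebraMap R S)) (hf0 : algebraMap R S f = 0)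
    (hk : ∀ r, algebraMap R S r = 0 → ∃ s, r = f * s)
    {M Q : Type*} [AddCommGroup M] [Module R M] [AddCommGroup Q] [Module R Q] [Module S Q]
    [IsScalarTower R S Q] [Module.Flat S Q] (π : M →ₗ[R] Q) (hπ : Surjective π)
    (hπk : ∀ x, π x = 0 → ∃ y, x = f • y) (hM : IsSMulRegular M f)
    {N : Type*} [AddCommGroup N] [Module R N] (hN : IsSMulRegular N f) :
    IsSMulRegular (M ⊗[R] N) f := by
  have hp : Surjective (Finsupp.linearCombination R (id : N → N)) :=
    Finsupp.linearCombination_surjective R surjective_id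
  generalize Finsupp.linearCombination R (id : N → N) = p at hp
  have hK : ∀ x, f • x ∈ LinearMap.ker p → x ∈ LinearMap.ker p := fun x hx => by
    have : f • p x = f • (0 : N) := by simpa using hx
    exact hN this
  have hQ : ∀ q : Q, f • q = 0 := fun q => by
    rw [← IsScalarTower.algebraMap_smul S f q, hf0, zero_smul]
  exact reg_aux f π hπ hQ hπk _ p (LinearMap.exact_subtype_ker_map p) hp
    (lTensor_inj (S := S) _ (baseChange_inj f hS hf0 hk _ hK)) (IsSMulRegular.rTensor _ hM)

/-- Slicing criterion. `S = R / f`, `Q = M / f`, `M' = M[1/f]`, all given abstractly. -/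
theorem flat_of_slice {S : Type*} [CommRing S] [Algebra R S] (f : R)
    (hS : Surjective (algebraMap R S)) (hf0 : algebraMap R S f = 0)
    (hk : ∀ r, algebraMap R S r = 0 → ∃ s, r = f * s) (hR : IsSMulRegular R f)
    {M Q : Type*} [AddCommGroup M] [Module R M] [AddCommGroup Q] [Module R Q] [Module S Q]
    [IsScalarTower R S Q] [Module.Flat S Q] (π : M →ₗ[R] Q) (hπ : Surjective π)
    (hπk : ∀ x, π x = 0 → ∃ y, x = f • y) (hM : IsSMulRegular M f)
    {M' : Type*} [AddCommGroup M'] [Module R M'] [Module.Flat R M'] (g : M →ₗ[R] M')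
    [IsLocalizedModule (Submonoid.powers f) g] : Module.Flat R M := by
  rw [Module.Flat.iff_lTensor_injective']
  intro I
  have hI : IsSMulRegular I f := fun a b h => Subtype.ext (hR (congrArg Subtype.val h))
  have hr := reg_tensor f hS hf0 hk π hπ hπk hM hI
  rw [injective_iff_map_eq_zero]
  intro z hz
  have i' : Injective (I.subtype.lTensor M') :=
    Module.Flat.lTensor_preserves_injective_linearMap _ I.injective_subtype
  have h0 : g.rTensor I z = 0 := by
    apply i'
    rw [map_zero, ← LinearMap.comp_apply, LinearMap.lTensor_comp_rTensor,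
      ← LinearMap.rTensor_comp_lTensor, LinearMap.comp_apply, hz, map_zero]
  have hl : IsLocalizedModule (Submonoid.powers f) (g.rTensor I) :=
    (inferInstance : IsLocalizedModule (Submonoid.powers f) (AlgebraTensorModule.rTensor R I g))
  obtain ⟨⟨_, n, rfl⟩, hn⟩ := (IsLocalizedModule.eq_zero_iff (Submonoid.powers f) _).1 h0
  have : f ^ n • z = f ^ n • (0 : M ⊗[R] I) := by rw [smul_zero]; exact hn
  exact hr.pow n this

end P251EJ19
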